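import Vale.Agent.P273SA.Rows
import Mathlib.Geometry.Manifold.PartitionOfUnity

/-!
# P273S: the row PU
-/

noncomputable section

namespace Vale.Agent.P273SL

open Set Filter Topology
open scoped ContDiff Manifold

/-- **PU** -/
theorem pu : Vale.Agent.P273SA.PU := by
  classical
  intro A _ _ _ W ρ hρ
  have hUo : IsOpen (⋃ y : W, Metric.ball (y : A) (ρ y)) :=
    isOpen_iUnion fun _ => Metric.isOpen_ball
  let U : TopologicalSpace.Opens A := ⟨⋃ y : W, Metric.ball (y : A) (ρ y), hUo⟩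
  have : ProperSpace A := FiniteDimensional.proper_real A
  have : LocallyCompactSpace U := hUo.locallyCompactSpace
  obtain ⟨f, hf⟩ := SmoothPartitionOfUnity.exists_isSubordinate (M := U) 𝓘(ℝ, A)
    (s := univ) isClosed_univ (fun y : W => Subtype.val ⁻¹' Metric.ball (y : A) (ρ y))
    (fun _ => Metric.isOpen_ball.preimage continuous_subtype_val)
    (fun a _ => by
      obtain ⟨y, hy⟩ := mem_iUnion.1 a.2
      exact mem_iUnion.2 ⟨y, hy⟩)
  let g : W → A → ℝ := fun i a => if h : a ∈ U then f i ⟨a, h⟩ else 0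
  have hg : ∀ i (a : U), g i a = f i a := fun i a => dif_pos a.2
  have hev : ∀ (a : U) (p : A → Prop), (∀ᶠ q : U in 𝓝 a, p q) → ∀ᶠ q in 𝓝 (a : A), p q := by
    intro a p h
    rw [← hUo.isOpenEmbedding_subtypeVal.map_nhds_eq a]
    exact h
  refine ⟨U, g, fun y hy => mem_iUnion.2 ⟨⟨y, hy⟩, Metric.mem_ball_self (hρ _)⟩, hUo, ?_, ?_, ?_,
    ?_⟩
  · intro i a ha
    have h1 : ContMDiffAt 𝓘(ℝ, A) 𝓘(ℝ, ℝ) ∞ (fun x : U => g i x) ⟨a, ha⟩ := by
      have h2 : (fun x : U => g i x) = f i := funext (hg i)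
      rw [h2]
      exact (f i).contMDiff _
    exact (contMDiffAt_subtype_iff.1 h1).contDiffAt.contDiffWithinAt
  · intro a ha
    obtain ⟨t, ht, hfin⟩ := f.locallyFinite ⟨a, ha⟩
    refine ⟨hfin.toFinset, hev ⟨a, ha⟩ _ ?_⟩
    filter_upwards [ht] with q hq i hi
    rw [hg]
    by_contra hne
    exact hi (hfin.mem_toFinset.2 ⟨q, hne, hq⟩)
  · intro a ha
    have h1 : (fun i => g i a) = fun i => f i ⟨a, ha⟩ := funext fun i => hg i ⟨a, ha⟩
    rw [h1]
    exact f.sum_eq_one (mem_univ _)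
  · intro i a ha hs
    apply hf i (a := ⟨a, ha⟩)
    by_contra hn
    rw [notMem_tsupport_iff_eventuallyEq] at hn
    refine (notMem_tsupport_iff_eventuallyEq.2 (hev ⟨a, ha⟩ (fun q => g i q = 0) ?_)) hs
    filter_upwards [hn] with q hq
    rw [hg]
    exact hq

end Vale.Agent.P273SL

end
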