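import Vale.Agent.P273SW.Defs

/-!
# P273S, block W: the rows WLC and WPHI

The charts of `WW` are homeomorphisms with open subsets of `ℂ^20`; the classes of the families of
the charts agree, so they define a continuous map on `WW`.
-/

noncomputable section

namespace Vale.Agent.P273SL

open Set Filter Topology Vale.Agent.P273 H95 Vale.Agent.P273SW
open Vale.Agent.P273.H183 (Fam IsMor)
open Vale.Agent.P273.H888 (Real Dist Far ept)

universe u

theorem pt4_eq_iff {s s' : Bool} {z v z' v' : ℂ} :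
    pt4 s z v = pt4 s' z' v' ↔ Same s z v s' z' v' := by
  have h := H888.ept_eq_iff (m := 0) (s := s) (s' := s') (b := 0) (b' := 0) (z := z) (v := v)
    (z' := z') (v' := v')
  constructor
  · intro e
    exact (h.1 (Prod.ext (Subsingleton.elim _ _) e)).2
  · intro e
    exact congrArg Prod.snd (h.2 ⟨rfl, e⟩)

theorem xx_of_same {s s' : Bool} {z v z' v' : ℂ} (h : Same s z v s' z' v') :
    xx s z = xx s' z' := by
  unfold Same at h
  cases s <;> cases s'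
  · simp only [if_true] at h
    rw [h.1]
  · simp only [Bool.false_eq_true, if_false] at h
    simp only [xx, Bool.false_eq_true, if_false, if_true]
    exact eq_inv_of_mul_eq_one_left h.1
  · simp only [Bool.true_eq_false, if_false] at h
    simp only [xx, Bool.false_eq_true, if_false, if_true]
    exact (eq_inv_of_mul_eq_one_right h.1).symm
  · simp only [if_true] at h
    rw [h.1]

theorem dist_of_gn {S : L → Bool} {e : E} {v : L → ℂ} (h : Gn S e v) : Dist S e v :=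
  ⟨h.2.1, fun i j hij hs => h.2.2.2 i j hij (xx_of_same hs)⟩

section ext

variable {M : Type} [NormedAddCommGroup M] [NormedSpace ℝ M] {S : L → Bool} {ψ : M → E}
  {σ : M → L → ℂ} {O : Set M} {f : M → Amb}

theorem ext_contAt (h : IsExt S ψ σ O f) {p : M} (hp : p ∈ O) : ContinuousAt f p :=
  h.sm.continuousOn.continuousAt (h.opn.mem_nhds hp)

theorem ext_std (h : IsExt S ψ σ O f) {p : M} (hp : p ∈ O) (hg : Gn S (ψ p) (σ p)) :
    f p ∈ StdW := ⟨S, ψ p, σ p, hg, h.eq p hp (dist_of_gn hg)⟩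

/-- generic points of a neighbourhood converge to a point of the domain -/
theorem ext_seq (h : IsExt S ψ σ O f) {p : M} (hp : p ∈ O) {V : Set M} (hV : V ∈ 𝓝 p) :
    ∃ x : ℕ → M, (∀ n, x n ∈ O ∧ x n ∈ V ∧ Gn S (ψ (x n)) (σ (x n))) ∧
      Tendsto x atTop (𝓝 p) := by
  have h1 : p ∈ closure ({q | Gn S (ψ q) (σ q)} ∩ (O ∩ V)) := by
    rw [mem_closure_iff_nhds]
    intro t ht
    obtain ⟨q, hq, hg⟩ := mem_closure_iff_nhds.1 (h.dense hp) (t ∩ (O ∩ V))
      (inter_mem ht (inter_mem (h.opn.mem_nhds hp) hV))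
    exact ⟨q, hq.1, hg, hq.2⟩
  obtain ⟨x, hx, hl⟩ := mem_closure_iff_seq_limit.1 h1
  exact ⟨x, fun n => ⟨(hx n).2.1, (hx n).2.2, (hx n).1⟩, hl⟩

theorem ext_closure (h : IsExt S ψ σ O f) {p : M} (hp : p ∈ O) : f p ∈ closure StdW := by
  obtain ⟨x, hx, hl⟩ := ext_seq h hp univ_mem
  exact mem_closure_of_tendsto ((ext_contAt h hp).tendsto.comp hl)
    (Eventually.of_forall fun n => ext_std h (hx n).1 (hx n).2.2)

end ext

/-- The data of a chart. -/
structure Ch where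
  S : L → Bool
  ψ : (Fin 20 → ℂ) → E
  σ : (Fin 20 → ℂ) → L → ℂ
  C : Fam L 20
  O : Set (Fin 20 → ℂ)
  f : (Fin 20 → ℂ) → Amb
  N : Set Amb
  lam : Amb → Fin 20 → ℂ
  real : Real (ContinuousLinearEquiv.refl ℂ (Fin 20 → ℂ)) ψ S σ C
  sub : O ⊆ C.B
  ext : IsExt S ψ σ O f
  opn : IsOpen N
  cont : ContinuousOn lam N
  maps : MapsTo lam N O
  linv : ∀ b ∈ O, f b ∈ N → lam (f b) = b
  rinv : ∀ u ∈ N ∩ StdW, f (lam u) = u

theorem exists_ch {w : Amb} (h : HasChart w) : ∃ c : Ch, w ∈ c.N := by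
  obtain ⟨S, ψ, σ, C, O, f, N, lam, h1, h2, h3, h4, h5, h6, h7, h8, h9⟩ := h
  exact ⟨⟨S, ψ, σ, C, O, f, N, lam, h1, h2, h3, h4, h6, h7, h8, h9⟩, h5⟩

namespace Ch

variable (c : Ch)

theorem hasChart {w : Amb} (h : w ∈ c.N) : HasChart w :=
  ⟨c.S, c.ψ, c.σ, c.C, c.O, c.f, c.N, c.lam, c.real, c.sub, c.ext, c.opn, h, c.cont, c.maps,
    c.linv, c.rinv⟩

theorem lamAt {w : Amb} (h : w ∈ c.N) : ContinuousAt c.lam w :=
  c.cont.continuousAt (c.opn.mem_nhds h)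

theorem rinv' {w : Amb} (h : w ∈ c.N) (hw : w ∈ closure StdW) : c.f (c.lam w) = w := by
  have h1 : ContinuousAt (fun u => c.f (c.lam u)) w :=
    ContinuousAt.comp (f := c.lam) (ext_contAt c.ext (c.maps h)) (c.lamAt h)
  have h2 : w ∈ closure (c.N ∩ StdW) := c.opn.inter_closure ⟨h, hw⟩
  obtain ⟨x, hx, hl⟩ := mem_closure_iff_seq_limit.1 h2
  have h3 : Tendsto (fun n => c.f (c.lam (x n))) atTop (𝓝 (c.f (c.lam w))) := h1.tendsto.comp hl
  have h4 : (fun n => c.f (c.lam (x n))) = x := funext fun n => c.rinv _ (hx n)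
  rw [h4] at h3
  exact tendsto_nhds_unique h3 hl

theorem mem_WW {b : Fin 20 → ℂ} (hb : b ∈ c.O) (h : c.f b ∈ c.N) : c.f b ∈ WW :=
  ⟨ext_closure c.ext hb, c.hasChart h⟩

/-- the part of `WW` over a set of parameters -/
def ovr (B : Set (Fin 20 → ℂ)) : Set WW := {u | u.1 ∈ c.N ∧ c.lam u.1 ∈ B}

/-- the chart as a homeomorphism -/
def homeo (B : Set (Fin 20 → ℂ)) (hB : ∀ b ∈ B, b ∈ c.O ∧ c.f b ∈ c.N) : c.ovr B ≃ₜ B where
  toFun u := ⟨c.lam u.1.1, u.2.2⟩
  invFun b := ⟨⟨c.f b.1, c.mem_WW (hB b.1 b.2).1 (hB b.1 b.2).2⟩, (hB b.1 b.2).2, by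
    show c.lam (c.f b.1) ∈ B
    rw [c.linv _ (hB b.1 b.2).1 (hB b.1 b.2).2]
    exact b.2⟩
  left_inv u := Subtype.ext (Subtype.ext (c.rinv' u.2.1 u.1.2.1))
  right_inv b := Subtype.ext (c.linv _ (hB b.1 b.2).1 (hB b.1 b.2).2)
  continuous_toFun := by
    refine Continuous.subtype_mk ?_ _
    exact c.cont.comp_continuous (continuous_subtype_val.comp continuous_subtype_val)
      fun u => u.2.1
  continuous_invFun := by
    refine Continuous.subtype_mk (Continuous.subtype_mk ?_ _) _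
    exact c.ext.sm.continuousOn.comp_continuous continuous_subtype_val fun b => (hB b.1 b.2).1

end Ch

/-- **WLC** -/
theorem wlc : WLC := by
  refine ⟨fun w => ?_⟩
  rw [hasBasis_self]
  intro t ht
  obtain ⟨c, hc⟩ := exists_ch w.2.2
  have hb : c.lam w.1 ∈ c.O := c.maps hc
  have hw : c.f (c.lam w.1) = w.1 := c.rinv' hc w.2.1
  obtain ⟨t', ht', hs⟩ := (mem_nhds_subtype WW w t).1 ht
  have h1 : c.f ⁻¹' (c.N ∩ t') ∈ 𝓝 (c.lam w.1) := by
    apply ext_contAt c.ext hb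
    rw [hw]
    exact inter_mem (c.opn.mem_nhds hc) ht'
  obtain ⟨r, hr, hB⟩ := Metric.mem_nhds_iff.1 (inter_mem (c.ext.opn.mem_nhds hb) h1)
  have hB' : ∀ b ∈ Metric.ball (c.lam w.1) r, b ∈ c.O ∧ c.f b ∈ c.N :=
    fun b hb => ⟨(hB hb).1, (hB hb).2.1⟩
  refine ⟨c.ovr (Metric.ball (c.lam w.1) r), ?_, ?_, ?_⟩
  · have h2 : c.N ∩ c.lam ⁻¹' Metric.ball (c.lam w.1) r ∈ 𝓝 w.1 :=
      inter_mem (c.opn.mem_nhds hc) (c.lamAt hc (Metric.ball_mem_nhds _ hr))
    exact continuous_subtype_val.continuousAt h2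
  · have : ContractibleSpace (Metric.ball (c.lam w.1) r) :=
      (convex_ball _ _).contractibleSpace ⟨_, Metric.mem_ball_self hr⟩
    exact (c.homeo _ hB').contractibleSpace
  · intro u hu
    apply hs
    have h3 := (hB hu.2).2.2
    rw [c.rinv' hu.1 u.2.1] at h3
    exact h3

/-- the class of a realizing family is the class in any chart -/
theorem cmp_ext (hC : CMP.{u}) {Z : Type u} [TopologicalSpace Z]
    {cls : ∀ m, Fam L m → (Fin m → ℂ) → Z} (hn : NatMap cls) {n : ℕ} {M : Type}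
    [NormedAddCommGroup M] [NormedSpace ℂ M] [NormedSpace ℝ M] (k : (Fin n → ℂ) ≃L[ℂ] M)
    {ψ : M → E} {S : L → Bool} {σ : M → L → ℂ} {C : Fam L n} {O : Set M} {f : M → Amb}
    (hR : Real k ψ S σ C) (hE : IsExt S ψ σ O f) (c : Ch) {p : M} (hp : p ∈ O)
    (hb : k.symm p ∈ C.B) (hN : f p ∈ c.N) :
    cls n C (k.symm p) = cls 20 c.C (c.lam (f p)) := by
  have hV : k.symm ⁻¹' C.B ∩ f ⁻¹' c.N ∈ 𝓝 p :=
    inter_mem (k.symm.continuous.continuousAt (hR.stable.1.mem_nhds hb))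
      (ext_contAt hE hp (c.opn.mem_nhds hN))
  obtain ⟨x, hx, hl⟩ := ext_seq hE hp hV
  refine hn.seq n 20 C c.C (fun i => k.symm (x i)) (fun i => c.lam (f (x i))) _ _ hR.stable
    c.real.stable hb (c.sub (c.maps hN)) (fun i => (hx i).2.1.1)
    (fun i => c.sub (c.maps (hx i).2.1.2)) ((k.symm.continuous.tendsto p).comp hl)
    (((c.lamAt hN).tendsto.comp (ext_contAt hE hp).tendsto).comp hl) fun i => ?_
  have hs : f (x i) ∈ StdW := ext_std hE (hx i).1 (hx i).2.2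
  have hO : c.lam (f (x i)) ∈ c.O := c.maps (hx i).2.1.2
  have he : c.f (c.lam (f (x i))) = f (x i) := c.rinv _ ⟨(hx i).2.1.2, hs⟩
  refine hC Z cls hn n 20 M (Fin 20 → ℂ) k (ContinuousLinearEquiv.refl ℂ _) ψ c.ψ S c.S σ c.σ C
    c.C hR c.real _ (hx i).2.1.1 _ (c.sub hO) ?_ ?_ ?_
  · rw [k.apply_symm_apply, ← hE.fst _ (hx i).1]
    exact (congrArg Prod.fst he).symm.trans (c.ext.fst _ hO)
  · intro j
    rw [k.apply_symm_apply, ← pt4_eq_iff, ← hE.pos _ (hx i).1]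
    exact (congrArg (fun w : Amb => w.2.1 j) he).symm.trans (c.ext.pos _ hO j)
  · rw [k.apply_symm_apply]
    exact dist_of_gn (hx i).2.2

/-- the map to the moduli space, with its values in all charts -/
theorem exists_phi (hC : CMP.{u}) {Z : Type u} [TopologicalSpace Z]
    {cls : ∀ m, Fam L m → (Fin m → ℂ) → Z} (hn : NatMap cls) :
    ∃ Φ : C(WW, Z), ∀ (c : Ch) (w : WW), w.1 ∈ c.N → Φ w = cls 20 c.C (c.lam w.1) := by
  choose ch hch using fun w : WW => exists_ch w.2.2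
  have key : ∀ (c : Ch) (w : WW), w.1 ∈ c.N →
      cls 20 (ch w).C ((ch w).lam w.1) = cls 20 c.C (c.lam w.1) := by
    intro c w hw
    have hO : (ch w).lam w.1 ∈ (ch w).O := (ch w).maps (hch w)
    have he : (ch w).f ((ch w).lam w.1) = w.1 := (ch w).rinv' (hch w) w.2.1
    have h := cmp_ext hC hn (ContinuousLinearEquiv.refl ℂ (Fin 20 → ℂ)) (ch w).real (ch w).ext c
      hO ((ch w).sub hO) (by rw [he]; exact hw)
    rw [he] at h
    exact h
  refine ⟨⟨fun w => cls 20 (ch w).C ((ch w).lam w.1), ?_⟩, key⟩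
  rw [continuous_iff_continuousAt]
  intro w
  have hN : (ch w).N ∈ 𝓝 w.1 := (ch w).opn.mem_nhds (hch w)
  have h1 : ContinuousAt (cls 20 (ch w).C) ((ch w).lam w.1) :=
    (hn.cont 20 _ (ch w).real.stable).continuousAt
      ((ch w).real.stable.1.mem_nhds ((ch w).sub ((ch w).maps (hch w))))
  have h2 : ContinuousAt (fun u : WW => cls 20 (ch w).C ((ch w).lam u.1)) w :=
    ContinuousAt.comp (f := fun u : WW => (ch w).lam u.1) h1
      (ContinuousAt.comp (f := fun u : WW => u.1) ((ch w).lamAt (hch w))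
        continuous_subtype_val.continuousAt)
  refine h2.congr ?_
  filter_upwards [continuous_subtype_val.continuousAt hN] with u hu
  exact (key (ch w) u hu).symm

/-- the general form of **WPHI**: the values at all points of all extensions -/
theorem wphi_gen (hC : CMP.{u}) {Z : Type u} [TopologicalSpace Z]
    {cls : ∀ m, Fam L m → (Fin m → ℂ) → Z} (hn : NatMap cls) :
    ∃ Φ : C(WW, Z), ∀ (n : ℕ) (M : Type) [NormedAddCommGroup M] [NormedSpace ℂ M]
      [NormedSpace ℝ M] (k : (Fin n → ℂ) ≃L[ℂ] M) (ψ : M → E) (S : L → Bool) (σ : M → L → ℂ)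
      (C : Fam L n) (O : Set M) (f : M → Amb), Real k ψ S σ C → IsExt S ψ σ O f → ∀ p ∈ O,
      k.symm p ∈ C.B → ∀ h : f p ∈ WW, Φ ⟨f p, h⟩ = cls n C (k.symm p) := by
  obtain ⟨Φ, hΦ⟩ := exists_phi hC hn
  refine ⟨Φ, fun n M _ _ _ k ψ S σ C O f hR hE p hp hb h => ?_⟩
  obtain ⟨c, hc⟩ := exists_ch h.2
  rw [hΦ c ⟨f p, h⟩ hc]
  exact (cmp_ext hC hn k hR hE c hp hb hc).symm

/-- **WPHI** -/
theorem wphi (hC : CMP.{u}) (hP : PR) : WPHI.{u} := by
  intro Z _ cls hn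
  obtain ⟨Φ, hΦ⟩ := wphi_gen hC hn
  exact ⟨Φ, fun R S C hF hR p hp hb h =>
    hΦ 17 R.Sp (H680.k17 R) R.psi S (R.sht S) C (R.dom S) (eR R S) hR (hP R S hF).1 p hp hb h⟩

/-- **WPHI** with the local lifts -/
theorem wphi2 (hC : CMP.{u}) (hP : PR) (Z : Type u) [TopologicalSpace Z]
    (cls : ∀ m, Fam L m → (Fin m → ℂ) → Z) (hn : NatMap cls) :
    ∃ Φ : C(WW, Z), (∀ (R : Region) (S : L → Bool) (C : Fam L 17), Far R S →
      Real (H680.k17 R) R.psi S (R.sht S) C → ∀ p ∈ R.dom S, (H680.k17 R).symm p ∈ C.B →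
      ∀ h : eR R S p ∈ WW, Φ ⟨eR R S p, h⟩ = cls 17 C ((H680.k17 R).symm p)) ∧
      ∀ w : WW, ∃ (C : Fam L 20) (lam : Amb → Fin 20 → ℂ), C.IsStable ∧ ContinuousAt lam w ∧
        lam w ∈ C.B ∧ ∀ᶠ u : WW in 𝓝 w, Φ u = cls 20 C (lam u) := by
  obtain ⟨Φ, hΦ⟩ := exists_phi hC hn
  refine ⟨Φ, fun R S C hF hR p hp hb h => ?_, fun w => ?_⟩
  · obtain ⟨c, hc⟩ := exists_ch h.2
    rw [hΦ c ⟨eR R S p, h⟩ hc]
    exact (cmp_ext hC hn (H680.k17 R) hR (hP R S hF).1 c hp hb hc).symm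
  · obtain ⟨c, hc⟩ := exists_ch w.2.2
    refine ⟨c.C, c.lam, c.real.stable, c.lamAt hc, c.sub (c.maps hc), ?_⟩
    filter_upwards [continuous_subtype_val.continuousAt (c.opn.mem_nhds hc)] with u hu
    exact hΦ c u hu

end Vale.Agent.P273SL

end
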