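import Vale.Agent.P273SL.Wlc
import Vale.Agent.P273SZ.IF

/-!
# P273S: the row WPHI2
-/

noncomputable section

namespace Vale.Agent.P273SL

open Set Filter Topology Vale.Agent.P273 H95 Vale.Agent.P273SW

universe u

/-- **WPHI2** -/
theorem wphi2_row (hC : CMP.{u}) (hP : PR) : Vale.Agent.P273SZ.WPHI2.{u} := by
  intro Z _ cls hn
  obtain ⟨Φ, h1, h2⟩ := wphi2 hC hP Z cls hn
  refine ⟨Φ, h1, fun w => ?_⟩
  obtain ⟨C, lam, hs, hc, hb, he⟩ := h2 w
  exact ⟨20, C, fun y => lam y.1, hs,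
    ContinuousAt.comp (f := fun y : WW => y.1) hc continuous_subtype_val.continuousAt, hb, he⟩

end Vale.Agent.P273SL

end
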